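import Vale.Agent.P297.H72.Z2.TDefs
import Vale.Agent.P297.H160.Z2Pts
import Vale.Agent.P297.H72.Rel
import Vale.Agent.P297.Gen.Setup

/-!
The general numerical Godeaux surface with torsion of order two: the common objects of the blocks
(nodes, lines through the nodes, lines in the planes `y = const`, cycles) and the interface.
-/

set_option linter.unusedSectionVars false
set_option linter.unusedVariables false

open Polynomial

namespace Vale.Agent.P297.Z2

open Vale.Agent.P297 Vale.Agent.P297.Gen Vale.Agent.P297.H72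
open Vale.Agent.P297.H160.Z2Irr

section cycles

variable {K : Type} [Field K] [Algebra ℂ K] {N : Type} [Field N] [Algebra ℂ N]

/-- **The cycle of the points of the surface on a parametrised curve `(p, r, y, S)(z)` of
`T_l`**: the sum over the roots of the equation of the surface. -/
noncomputable def cyc (P : Par) (x₀ : Fin 5 → K) (l : N) (p r y S : N[X]) : (K →ₐ[ℂ] N) →₀ ℤ :=
  ((tPhi P (C l) p r y S).roots.map fun z =>
    H160.Z2Irr.pt x₀ (toS P l (p.eval z) (r.eval z) (y.eval z) (S.eval z))).sum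

end cycles

section nodes

variable {N : Type} [Field N] [Algebra ℂ N]

/-- **The point `(al : -be : 1 : 0)` at infinity is a node of the branch quartic of `T_l`.** -/
structure IsNode (P : Par) (l al be : N) : Prop where
  al0 : al ≠ 0
  be0 : be ≠ 0
  sub : be - al = 1 - l
  cub : al * be * (algebraMap ℂ N P.Q0 * al - algebraMap ℂ N P.Q1 * be) =
    l * (algebraMap ℂ N P.P0 * al ^ 2 - algebraMap ℂ N P.P1 * (al * be) +
      algebraMap ℂ N P.P2 * be ^ 2)

/-- **A component of `T_l` over the line `(al z + p, -be z + r, z)` through a node**: on the line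
the equation `B = (s z + s') ^ 2` holds. -/
structure NLine (P : Par) (l al be p r s s' : N) : Prop where
  node : IsNode P l al be
  eq : tB P (C l : N[X]) (C al * X + C p) (C (-be) * X + C r) X = (C s * X + C s') ^ 2

/-- **A line of `T_l` over `y`**: `B = (s0 + s1 z + s2 z ^ 2) ^ 2` on
`(p0 + p1 z, r0 + r1 z, y)`. -/
structure YLine (P : Par) (l y p0 p1 r0 r1 s0 s1 s2 : N) : Prop where
  ne : p1 ≠ 0 ∨ r1 ≠ 0
  eq : tB P (C l : N[X]) (C p0 + C p1 * X) (C r0 + C r1 * X) (C y) =
    (C s0 + C s1 * X + C s2 * X ^ 2) ^ 2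

variable {K : Type} [Field K] [Algebra ℂ K]

/-- the cycle of a line through a node -/
noncomputable def ncyc (P : Par) (x₀ : Fin 5 → K) (l al be p r s s' : N) : (K →ₐ[ℂ] N) →₀ ℤ :=
  cyc P x₀ l (C al * X + C p) (C (-be) * X + C r) X (C s * X + C s')

/-- the cycle of a line over `y` -/
noncomputable def ycyc (P : Par) (x₀ : Fin 5 → K) (l y p0 p1 r0 r1 s0 s1 s2 : N) :
    (K →ₐ[ℂ] N) →₀ ℤ :=
  cyc P x₀ l (C p0 + C p1 * X) (C r0 + C r1 * X) (C y) (C s0 + C s1 * X + C s2 * X ^ 2)

/-- **[T]** The lines through the nodes: a multiple of the cycle of the general line is a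
relation. -/
def NodeConst (P : Par) (x₀ : Fin 5 → K) (N : Type) [Field N] [Algebra ℂ N] (m n : ℤ) : Prop :=
  ∀ l al be p r s s' : N, Transcendental ℂ l → NLine P l al be p r s s' →
    (p ∉ cl0 {l} ∨ r ∉ cl0 {l}) → n • ncyc P x₀ l al be p r s s' ∈ Rel m K N

/-- **[LINK6]** The lines over `y` and six lines through a node. -/
def Link6 (P : Par) (x₀ : Fin 5 → K) (N : Type) [Field N] [Algebra ℂ N] (m : ℤ) : Prop :=
  ∀ l y p0 p1 r0 r1 s0 s1 s2 al be : N, AlgebraicIndependent ℂ ![l, y] →
    YLine P l y p0 p1 r0 r1 s0 s1 s2 → IsNode P l al be →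
    ∃ p r s s' : Fin 6 → N, (∀ i, NLine P l al be (p i) (r i) (s i) (s' i)) ∧
      (∀ i, p i ∉ cl0 {l} ∨ r i ∉ cl0 {l}) ∧
      (2 : ℤ) • ycyc P x₀ l y p0 p1 r0 r1 s0 s1 s2 +
        ∑ i, ncyc P x₀ l al be (p i) (r i) (s i) (s' i) ∈ Rel m K N

end nodes

end Vale.Agent.P297.Z2
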