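import Vale.Agent.P297.H424.Z2.Iface

/-!
The three nodes at infinity of the branch quartic of `T_l`.
-/

set_option linter.unusedSectionVars false
set_option linter.unusedVariables false

open Polynomial

namespace Vale.Agent.P297.Z2

open Vale.Agent.P297 Vale.Agent.P297.Gen
open Vale.Agent.P297.H160.Z2Irr

/-- The conditions on the parameters for three distinct nodes over the general `l`. -/
structure NC (P : Par) : Prop where
  P0 : P.P0 ≠ 0
  P2 : P.P2 ≠ 0
  Q : P.Q0 ≠ P.Q1
  R : P.P0 * P.Q1 ^ 2 - P.P1 * P.Q0 * P.Q1 + P.P2 * P.Q0 ^ 2 ≠ 0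

section ring

variable {R : Type*} [CommRing R] [Algebra ℂ R] (P : Par)

def tq (t : R) : R := algebraMap ℂ R P.P0 * t ^ 2 - algebraMap ℂ R P.P1 * t + algebraMap ℂ R P.P2

def tg (t : R) : R := t * (algebraMap ℂ R P.Q0 * t - algebraMap ℂ R P.Q1)

/-- the denominator -/
def tD (t : R) : R := (1 - t) * tq P t + tg P t

/-- the cubic equation of the nodes -/
def tC (l t : R) : R := l * ((1 - t) * tq P t) + (l - 1) * tg P t

variable {R' : Type*} [CommRing R'] [Algebra ℂ R'] (f : R →ₐ[ℂ] R')

theorem map_tq (t : R) : f (tq P t) = tq P (f t) := by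
  simp only [tq, map_add, map_sub, map_mul, map_pow, AlgHom.commutes]

theorem map_tg (t : R) : f (tg P t) = tg P (f t) := by
  simp only [tg, map_sub, map_mul, AlgHom.commutes]

theorem map_tD (t : R) : f (tD P t) = tD P (f t) := by
  simp only [tD, map_add, map_sub, map_mul, map_one, map_tq, map_tg]

theorem map_tC (l t : R) : f (tC P l t) = tC P (f l) (f t) := by
  simp only [tC, map_add, map_sub, map_mul, map_one, map_tq, map_tg]

end ring

section poly

variable (P : Par)

/-- `(1 - t) q(t)` as a polynomial -/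
noncomputable def fp : ℂ[X] := (1 - X) * tq P X

noncomputable def gp : ℂ[X] := tg P X

theorem aeval_fp {N : Type*} [CommRing N] [Algebra ℂ N] (t : N) :
    aeval t (fp P) = (1 - t) * tq P t := by
  unfold fp
  rw [map_mul, map_sub, map_one, aeval_X, map_tq, aeval_X]

theorem aeval_gp {N : Type*} [CommRing N] [Algebra ℂ N] (t : N) : aeval t (gp P) = tg P t := by
  unfold gp
  rw [map_tg, aeval_X]

variable {P}

theorem fp_eq : fp P = -C P.P0 * X ^ 3 + C (P.P0 + P.P1) * X ^ 2 - C (P.P1 + P.P2) * X + C P.P2 := by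
  simp only [fp, tq, Polynomial.algebraMap_eq, C_add]
  ring

theorem fp_natDegree (h : NC P) : (fp P).natDegree = 3 := by
  rw [fp_eq]
  have h0 := h.P0
  compute_degree!

theorem NC.coprime (h : NC P) : IsCoprime (fp P) (gp P) := by
  rw [Polynomial.isCoprime_iff_aeval_ne_zero_of_isAlgClosed ℂ ℂ]
  intro z
  by_contra hcon
  push Not at hcon
  obtain ⟨h1, h2⟩ := hcon
  rw [aeval_fp] at h1
  rw [aeval_gp] at h2
  simp only [tq, tg, Algebra.algebraMap_self, RingHom.id_apply] at h1 h2
  rcases mul_eq_zero.1 h2 with h3 | h3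
  · rw [h3] at h1
    apply h.P2
    linear_combination h1
  · rcases mul_eq_zero.1 h1 with h4 | h4
    · apply h.Q
      have : z = 1 := by linear_combination -h4
      rw [this] at h3
      linear_combination h3
    · by_cases hQ0 : P.Q0 = 0
      · rw [hQ0] at h3
        have hQ1 : P.Q1 = 0 := by linear_combination -h3
        apply h.R
        rw [hQ0, hQ1]
        ring
      · apply h.R
        have hz : P.Q0 * z = P.Q1 := by linear_combination h3
        rw [← hz]
        linear_combination P.Q0 ^ 2 * h4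

theorem NC.wronskian (h : NC P) :
    fp P * derivative (gp P) - derivative (fp P) * gp P ≠ 0 := by
  intro h0
  have h1 : fp P ∣ derivative (fp P) * gp P := ⟨derivative (gp P), by linear_combination -h0⟩
  have h2 : fp P ∣ derivative (fp P) := h.coprime.dvd_of_dvd_mul_right h1
  have h3 : derivative (fp P) ≠ 0 := by
    intro h4
    have := derivative_eq_zero.1 h4
    rw [fp_natDegree h] at this
    omega
  have h4 := natDegree_le_of_dvd h2 h3
  have h5 := natDegree_derivative_le (fp P)
  rw [fp_natDegree h] at h4 h5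
  omega

end poly

section field

variable {N : Type} [Field N] [Algebra ℂ N] {P : Par} {l : N}

theorem tr_aeval_ne {t : N} (ht : Transcendental ℂ t) {f : ℂ[X]} (hf : f ≠ 0) : aeval t f ≠ 0 :=
  fun h => ht ⟨f, hf, h⟩

theorem alg_const {t : N} (ht : IsAlgebraic ℂ t) : ∃ z : ℂ, algebraMap ℂ N z = t := by
  have h1 := IsAlgClosed.degree_eq_one_of_irreducible ℂ (minpoly.irreducible ht.isIntegral)
  obtain ⟨z, hz⟩ := minpoly.mem_range_of_degree_eq_one ℂ t h1
  exact ⟨z, hz⟩

/-- the roots are transcendental -/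
theorem root_tr (h : NC P) (hl : Transcendental ℂ l) {t : N} (ht : tC P l t = 0) :
    Transcendental ℂ t := by
  intro halg
  obtain ⟨z, rfl⟩ := alg_const halg
  have e1 : algebraMap ℂ N (aeval z (fp P)) = (1 - algebraMap ℂ N z) * tq P (algebraMap ℂ N z) := by
    rw [← aeval_fp, aeval_algebraMap_apply]
  have e2 : algebraMap ℂ N (aeval z (gp P)) = tg P (algebraMap ℂ N z) := by
    rw [← aeval_gp, aeval_algebraMap_apply]
  have h1 : aeval l (C (aeval z (fp P) + aeval z (gp P)) * X - C (aeval z (gp P)) : ℂ[X]) = 0 := by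
    unfold tC at ht
    rw [← e1, ← e2] at ht
    simp only [map_sub, map_mul, aeval_C, aeval_X, map_add]
    linear_combination ht
  have h2 : (C (aeval z (fp P) + aeval z (gp P)) * X - C (aeval z (gp P)) : ℂ[X]) = 0 := by
    by_contra hne
    exact tr_aeval_ne hl hne h1
  have h3 := congrArg (fun f => coeff f 0) h2
  have h4 := congrArg (fun f => coeff f 1) h2
  simp only [coeff_sub, coeff_C_mul, coeff_X_zero, mul_zero, coeff_C_zero, coeff_zero, zero_sub,
    coeff_X_one, mul_one, coeff_C_succ, sub_zero] at h3 h4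
  have h5 : aeval z (gp P) = 0 := neg_eq_zero.1 h3
  have h6 : aeval z (fp P) = 0 := by rw [h5, add_zero] at h4; exact h4
  obtain ⟨a, b, hab⟩ := h.coprime
  have h7 := congrArg (aeval z) hab
  rw [map_add, map_mul, map_mul, h5, h6, mul_zero, mul_zero, add_zero, map_one] at h7
  exact zero_ne_one h7

theorem tD_ne (h : NC P) {t : N} (ht : Transcendental ℂ t) : tD P t ≠ 0 := by
  have h0 := fp_natDegree h
  have h1 : fp P + gp P ≠ 0 := by
    intro h2
    have h3 : gp P = -fp P := by linear_combination h2
    have h4 := h.coprime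
    rw [h3, IsCoprime.neg_right_iff, isCoprime_self] at h4
    have := natDegree_eq_zero_of_isUnit h4
    omega
  have h2 := tr_aeval_ne ht h1
  rw [map_add, aeval_fp, aeval_gp] at h2
  exact h2

theorem tq_ne (h : NC P) {t : N} (ht : Transcendental ℂ t) : tq P t ≠ 0 := by
  have h1 : fp P ≠ 0 := by
    intro h0
    have := fp_natDegree h
    rw [h0, natDegree_zero] at this
    omega
  have h2 := tr_aeval_ne ht h1
  rw [aeval_fp] at h2
  exact right_ne_zero_of_mul h2

/-- `l` is a rational function of `t` -/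
theorem l_eq (h : NC P) {t : N} (ht : Transcendental ℂ t) (hc : tC P l t = 0) :
    l = tg P t / tD P t := by
  rw [eq_div_iff (tD_ne h ht)]
  unfold tC at hc
  unfold tD
  linear_combination hc

/-- the letters of the node -/
noncomputable def nbe (P : Par) (t : N) : N := tq P t / tD P t

noncomputable def nal (P : Par) (t : N) : N := t * nbe P t

theorem isNode_of (h : NC P) {t : N} (ht : Transcendental ℂ t) (hc : tC P l t = 0) :
    IsNode P l (nal P t) (nbe P t) := by
  have h0 : t ≠ 0 := by
    rintro rfl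
    exact ht isAlgebraic_zero
  have hD := tD_ne h ht
  have hq := tq_ne h ht
  have hb : nbe P t ≠ 0 := div_ne_zero hq hD
  refine ⟨mul_ne_zero h0 hb, hb, ?_, ?_⟩
  · rw [l_eq h ht hc]
    unfold nal nbe
    field_simp
    unfold tD
    ring
  · rw [l_eq h ht hc]
    unfold nal nbe
    field_simp
    unfold tg tq
    ring

/-- every node is of this kind -/
theorem tC_of_isNode {al be : N} (hn : IsNode P l al be) : tC P l (al / be) = 0 := by
  have h1 := hn.sub
  have h2 := hn.cub
  have hb := hn.be0
  have ha : al = al / be * be := by field_simp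
  set t := al / be with ht
  rw [ha] at h1 h2
  have h3 : be * (1 - t) = 1 - l := by linear_combination h1
  have h4 : t * be * (algebraMap ℂ N P.Q0 * t - algebraMap ℂ N P.Q1) = l * tq P t := by
    apply mul_left_cancel₀ (pow_ne_zero 2 hb)
    unfold tq
    linear_combination h2
  unfold tC tg
  linear_combination (-(1 - t)) * h4 + t * (algebraMap ℂ N P.Q0 * t - algebraMap ℂ N P.Q1) * h3

theorem be_of_isNode (h : NC P) (hl : Transcendental ℂ l) {al be : N} (hn : IsNode P l al be) :
    be = nbe P (al / be) ∧ al = nal P (al / be) := by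
  have h0 := tC_of_isNode hn
  have htr := root_tr h hl h0
  have hD := tD_ne h htr
  have h1 := hn.sub
  have h2 := hn.cub
  have hb := hn.be0
  have ha : al = al / be * be := by field_simp
  set t := al / be with ht
  rw [ha] at h1 h2
  have h3 : be * (1 - t) = 1 - l := by linear_combination h1
  have h4 : t * be * (algebraMap ℂ N P.Q0 * t - algebraMap ℂ N P.Q1) = l * tq P t := by
    apply mul_left_cancel₀ (pow_ne_zero 2 hb)
    unfold tq
    linear_combination h2
  have h5 : be = nbe P t := by
    unfold nbe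
    rw [eq_div_iff hD]
    unfold tD tg
    linear_combination tq P t * h3 + h4
  exact ⟨h5, by rw [nal, ← h5]; exact ha⟩

end field

section tri

variable {N : Type} [Field N] [Algebra ℂ N] [IsAlgClosed N] {P : Par} {l : N}

/-- the cubic as a polynomial over `N` -/
noncomputable def tcp (P : Par) (l : N) : N[X] :=
  C l * (fp P).map (algebraMap ℂ N) + C (l - 1) * (gp P).map (algebraMap ℂ N)

theorem eval_tcp (t : N) : (tcp P l).eval t = tC P l t := by
  unfold tcp tC
  rw [eval_add, eval_mul, eval_mul, eval_C, eval_C, eval_map_algebraMap, eval_map_algebraMap,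
    aeval_fp, aeval_gp]

theorem tcp_eq : tcp P l = C (-(l * algebraMap ℂ N P.P0)) * X ^ 3 +
    C (l * algebraMap ℂ N (P.P0 + P.P1) + (l - 1) * algebraMap ℂ N P.Q0) * X ^ 2 +
    C (-(l * algebraMap ℂ N (P.P1 + P.P2) + (l - 1) * algebraMap ℂ N P.Q1)) * X +
    C (l * algebraMap ℂ N P.P2) := by
  unfold tcp
  rw [fp_eq]
  simp only [gp, tg, Polynomial.map_add, Polynomial.map_sub, Polynomial.map_mul,
    Polynomial.map_neg, map_C, map_X, Polynomial.map_pow, Polynomial.algebraMap_eq,
    C_sub, C_mul, C_neg, map_add]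
  ring

theorem tcp_natDegree (h : NC P) (hl : Transcendental ℂ l) : (tcp P l).natDegree = 3 := by
  have h0 : l ≠ 0 := by
    rintro rfl
    exact hl isAlgebraic_zero
  rw [tcp_eq]
  compute_degree!
  exact ⟨h0, h.P0⟩

theorem tcp_sep (h : NC P) (hl : Transcendental ℂ l) {t : N} (ht : tC P l t = 0) :
    (derivative (tcp P l)).eval t ≠ 0 := by
  intro h0
  have htr := root_tr h hl ht
  have h1 := tr_aeval_ne htr h.wronskian
  apply h1
  have e : (derivative (tcp P l)).eval t =
      l * aeval t (derivative (fp P)) + (l - 1) * aeval t (derivative (gp P)) := by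
    unfold tcp
    rw [derivative_add, derivative_C_mul, derivative_C_mul, derivative_map, derivative_map,
      eval_add, eval_mul, eval_mul, eval_C, eval_C, eval_map_algebraMap, eval_map_algebraMap]
  rw [e] at h0
  have e2 : l * aeval t (fp P) + (l - 1) * aeval t (gp P) = 0 := by
    rw [aeval_fp, aeval_gp]
    exact ht
  rw [map_sub, map_mul, map_mul]
  by_cases hl1 : l - 1 = 0
  · rw [hl1, zero_mul, add_zero] at h0 e2
    have hl0 : l ≠ 0 := by
      rintro rfl
      exact hl isAlgebraic_zero
    rw [(mul_eq_zero.1 h0).resolve_left hl0, (mul_eq_zero.1 e2).resolve_left hl0]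
    ring
  · apply mul_left_cancel₀ hl1
    rw [mul_zero]
    linear_combination aeval t (fp P) * h0 - aeval t (derivative (fp P)) * e2

/-- **The three nodes.** -/
structure Tri (P : Par) (l : N) (t : Fin 3 → N) : Prop where
  inj : Function.Injective t
  root : ∀ i, tC P l (t i) = 0
  all : ∀ z, tC P l z = 0 → ∃ i, z = t i

theorem exists_tri (h : NC P) (hl : Transcendental ℂ l) : ∃ t : Fin 3 → N, Tri P l t := by
  classical
  have hd := tcp_natDegree h hl
  have h0 : tcp P l ≠ 0 := by
    intro h0
    rw [h0, natDegree_zero] at hd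
    omega
  have hnd : (tcp P l).roots.Nodup := by
    rw [Multiset.nodup_iff_count_le_one]
    intro z
    rw [count_roots]
    by_contra hcon
    push Not at hcon
    have hz : (tcp P l).eval z = 0 := by
      by_contra hne
      rw [rootMultiplicity_eq_zero (by rwa [IsRoot.def])] at hcon
      omega
    have hz' := hz
    rw [eval_tcp] at hz'
    have := (one_lt_rootMultiplicity_iff_isRoot h0).1 hcon
    exact tcp_sep h hl hz' this.2
  have hcard : (tcp P l).roots.toFinset.card = 3 := by
    rw [Multiset.toFinset_card_of_nodup hnd, ← hd]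
    exact IsAlgClosed.card_roots_eq_natDegree
  let e := (tcp P l).roots.toFinset.equivFinOfCardEq hcard
  refine ⟨fun i => (e.symm i : N), ?_, ?_, ?_⟩
  · intro i j hij
    exact e.symm.injective (Subtype.ext hij)
  · intro i
    have h1 := (e.symm i).2
    rw [Multiset.mem_toFinset, mem_roots h0, IsRoot.def, eval_tcp] at h1
    exact h1
  · intro z hz
    have h1 : z ∈ (tcp P l).roots.toFinset := by
      rw [Multiset.mem_toFinset, mem_roots h0, IsRoot.def, eval_tcp]
      exact hz
    exact ⟨e ⟨z, h1⟩, by simp⟩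

variable {t : Fin 3 → N}

theorem Tri.tr (h : NC P) (hl : Transcendental ℂ l) (H : Tri P l t) (i : Fin 3) :
    Transcendental ℂ (t i) := root_tr h hl (H.root i)

theorem Tri.isNode (h : NC P) (hl : Transcendental ℂ l) (H : Tri P l t) (i : Fin 3) :
    IsNode P l (nal P (t i)) (nbe P (t i)) := isNode_of h (H.tr h hl i) (H.root i)

theorem Tri.l_eq (h : NC P) (hl : Transcendental ℂ l) (H : Tri P l t) (i : Fin 3) :
    l = tg P (t i) / tD P (t i) := Z2.l_eq h (H.tr h hl i) (H.root i)

/-- every node is one of the three -/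
theorem Tri.exists_eq (h : NC P) (hl : Transcendental ℂ l) (H : Tri P l t) {al be : N}
    (hn : IsNode P l al be) : ∃ i, al = nal P (t i) ∧ be = nbe P (t i) ∧ al / be = t i := by
  obtain ⟨i, hi⟩ := H.all _ (tC_of_isNode hn)
  obtain ⟨h1, h2⟩ := be_of_isNode h hl hn
  rw [hi] at h1 h2
  exact ⟨i, h2, h1, hi⟩

/-- the automorphisms over `ℂ(l)` permute the nodes -/
theorem Tri.perm (H : Tri P l t) (g : N ≃ₐ[ℂ] N) (hg : g l = l) :
    ∃ σ : Equiv.Perm (Fin 3), ∀ i, g (t i) = t (σ i) := by
  have h1 : ∀ i, ∃ j, g (t i) = t j := by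
    intro i
    apply H.all
    have h2 := congrArg (g : N →ₐ[ℂ] N) (H.root i)
    rw [map_tC, map_zero] at h2
    change tC P (g l) (g (t i)) = 0 at h2
    rw [hg] at h2
    exact h2
  choose f hf using h1
  have hinj : Function.Injective f := by
    intro i j hij
    apply H.inj
    apply g.injective
    rw [hf i, hf j, hij]
  exact ⟨Equiv.ofBijective f (Finite.injective_iff_bijective.1 hinj), hf⟩

theorem mem_cl0_of_root (h : NC P) (hl : Transcendental ℂ l) {z : N} (hz : tC P l z = 0) :
    z ∈ cl0 ({l} : Set N) := by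
  rw [mem_cl0]
  have hlm : l ∈ IntermediateField.adjoin ℂ ({l} : Set N) :=
    IntermediateField.subset_adjoin _ _ rfl
  have hr : C (⟨l, hlm⟩ : IntermediateField.adjoin ℂ ({l} : Set N)) * (fp P).map (algebraMap ℂ _) +
      C (⟨l, hlm⟩ - 1) * (gp P).map (algebraMap ℂ _) ≠ 0 := by
    intro h0
    have h1 := congrArg (Polynomial.map (algebraMap (IntermediateField.adjoin ℂ ({l} : Set N)) N)) h0
    rw [Polynomial.map_zero] at h1
    have h2 : Polynomial.map (algebraMap (IntermediateField.adjoin ℂ ({l} : Set N)) N)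
        (C (⟨l, hlm⟩ : IntermediateField.adjoin ℂ ({l} : Set N)) * (fp P).map (algebraMap ℂ _) +
          C (⟨l, hlm⟩ - 1) * (gp P).map (algebraMap ℂ _)) = tcp P l := by
      simp only [Polynomial.map_add, Polynomial.map_mul, map_C, Polynomial.map_map, tcp]
      rfl
    rw [h2] at h1
    have hd := tcp_natDegree h hl
    rw [h1, natDegree_zero] at hd
    omega
  refine ⟨_, hr, ?_⟩
  rw [map_add, map_mul, map_mul, aeval_C, aeval_C, aeval_map_algebraMap, aeval_map_algebraMap,
    aeval_fp, aeval_gp, map_sub, map_one]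
  exact hz

/-- an automorphism that fixes a node fixes `l` -/
theorem Tri.fix_l (h : NC P) (hl : Transcendental ℂ l) (H : Tri P l t) {i : Fin 3}
    {g : N ≃ₐ[ℂ] N} (hg : g (t i) = t i) : g l = l := by
  have h1 := congrArg (g : N →ₐ[ℂ] N) (H.l_eq h hl i)
  rw [map_div₀, map_tg, map_tD] at h1
  change g l = tg P (g (t i)) / tD P (g (t i)) at h1
  rw [hg, ← H.l_eq h hl i] at h1
  exact h1

theorem Tri.lmem (h : NC P) (hl : Transcendental ℂ l) (H : Tri P l t) (i : Fin 3) :
    l ∈ cl0 ({t i} : Set N) := by
  have hm : t i ∈ IntermediateField.adjoin ℂ ({t i} : Set N) :=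
    IntermediateField.subset_adjoin _ _ rfl
  have hg : tg P (t i) ∈ IntermediateField.adjoin ℂ ({t i} : Set N) := by
    have e := map_tg P (IntermediateField.val _)
      (⟨t i, hm⟩ : IntermediateField.adjoin ℂ ({t i} : Set N))
    change _ = tg P (t i) at e
    rw [← e]
    exact Subtype.property _
  have hD : tD P (t i) ∈ IntermediateField.adjoin ℂ ({t i} : Set N) := by
    have e := map_tD P (IntermediateField.val _)
      (⟨t i, hm⟩ : IntermediateField.adjoin ℂ ({t i} : Set N))
    change _ = tD P (t i) at e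
    rw [← e]
    exact Subtype.property _
  rw [H.l_eq h hl i, mem_cl0]
  have := div_mem hg hD
  exact isAlgebraic_algebraMap (⟨_, this⟩ : IntermediateField.adjoin ℂ ({t i} : Set N))

theorem map_nbe (g : N →ₐ[ℂ] N) (z : N) : g (nbe P z) = nbe P (g z) := by
  unfold nbe
  rw [map_div₀, map_tq, map_tD]

theorem map_nal (g : N →ₐ[ℂ] N) (z : N) : g (nal P z) = nal P (g z) := by
  unfold nal
  rw [map_mul, map_nbe]

theorem Tri.mem (h : NC P) (hl : Transcendental ℂ l) (H : Tri P l t) (i : Fin 3) :
    t i ∈ cl0 ({l} : Set N) := mem_cl0_of_root h hl (H.root i)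

end tri

end Vale.Agent.P297.Z2
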