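import Vale.Agent.P297.H424.Z2.Nodes
import Vale.Agent.P297.H160.Z2FF
import Vale.Agent.P297.H424.Z3.Main

/-!
The general numerical Godeaux surface with torsion of order two: the main theorem from the blocks.
-/

set_option linter.unusedSectionVars false
set_option linter.unusedVariables false

open Polynomial

namespace Vale.Agent.P297.Z2

open Vale.Agent.P297 Vale.Agent.P297.Gen Vale.Agent.P297.H72 Vale.Agent.P297.H839
open Vale.Agent.P297.H600
open Vale.Agent.P297.H160.Z2Irr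

section

variable {K : Type} [Field K] [Algebra ℂ K] {N : Type} [Field N] [Algebra ℂ N]

/-- **[LINK6]** The lines over `y` and six lines through one of the nodes. -/
def Link6E (P : Par) (x₀ : Fin 5 → K) (N : Type) [Field N] [Algebra ℂ N] (m : ℤ) : Prop :=
  ∀ l y p0 p1 r0 r1 s0 s1 s2 : N, AlgebraicIndependent ℂ ![l, y] →
    YLine P l y p0 p1 r0 r1 s0 s1 s2 →
    ∃ al be : N, ∃ p r s s' : Fin 6 → N, (∀ i, NLine P l al be (p i) (r i) (s i) (s' i)) ∧
      (∀ i, p i ∉ cl0 {l} ∨ r i ∉ cl0 {l}) ∧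
      (2 : ℤ) • ycyc P x₀ l y p0 p1 r0 r1 s0 s1 s2 +
        ∑ i, ncyc P x₀ l al be (p i) (r i) (s i) (s' i) ∈ Rel m K N

theorem tr_of_ind {l y : N} (h : AlgebraicIndependent ℂ ![l, y]) : Transcendental ℂ l := by
  have := h.transcendental 0
  exact this

theorem Link6.toE [IsAlgClosed N] {P : Par} {x₀ : Fin 5 → K} {m : ℤ} (hP : NC P)
    (h : Link6 P x₀ N m) : Link6E P x₀ N m := by
  intro l y p0 p1 r0 r1 s0 s1 s2 hi hY
  have hl := tr_of_ind hi
  obtain ⟨t, ht⟩ := exists_tri hP hl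
  obtain ⟨p, r, s, s', h1⟩ := h l y p0 p1 r0 r1 s0 s1 s2 _ _ hi hY (ht.isNode hP hl 0)
  exact ⟨_, _, p, r, s, s', h1⟩

/-- A multiple of the cycle of a line over the general `y` is a relation. -/
theorem ycyc_rel {P : Par} {x₀ : Fin 5 → K} {m n : ℤ} (hT : NodeConst P x₀ N m n)
    (hL : Link6E P x₀ N m) {l y p0 p1 r0 r1 s0 s1 s2 : N} (hi : AlgebraicIndependent ℂ ![l, y])
    (hY : YLine P l y p0 p1 r0 r1 s0 s1 s2) :
    (2 * n) • ycyc P x₀ l y p0 p1 r0 r1 s0 s1 s2 ∈ Rel m K N := by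
  have hl := tr_of_ind hi
  obtain ⟨al, be, p, r, s, s', h1, h2, h3⟩ := hL l y p0 p1 r0 r1 s0 s1 s2 hi hY
  have h4 := (Rel m K N).zsmul_mem h3 n
  have h5 : n • ∑ i, ncyc P x₀ l al be (p i) (r i) (s i) (s' i) ∈ Rel m K N := by
    rw [Finset.smul_sum]
    exact sum_mem fun i _ => hT l al be _ _ _ _ hl (h1 i) (h2 i)
  have h6 := sub_mem h4 h5
  rw [smul_add, add_sub_cancel_right, smul_smul, mul_comm n 2] at h6
  exact h6

/-- The chords of the canonical curves are lines of `T_l`. -/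
def ChordLine (P : Par) (x₀ : Fin 5 → K) (N : Type) [Field N] [Algebra ℂ N]
    (Chord : N → (Fin 5 → N) → (Fin 5 → N) → Prop) : Prop :=
  ∀ l w w', Chord l w w' → AlgebraicIndependent ℂ ![l, w 2] ∧
    ∃ p0 p1 r0 r1 s0 s1 s2, YLine P l (w 2) p0 p1 r0 r1 s0 s1 s2 ∧
      ycyc P x₀ l (w 2) p0 p1 r0 r1 s0 s1 s2 =
        H160.Z2Irr.pt x₀ w + H160.Z2Irr.pt x₀ w'

/-- the K-side -/
def KSide (P : Par) (x₀ : Fin 5 → K) (N : Type) [Field N] [Algebra ℂ N] (m : ℤ)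
    (Chord : N → (Fin 5 → N) → (Fin 5 → N) → Prop) : Prop :=
  ∀ n : ℤ, n ≠ 0 → (∀ l w w', Chord l w w' →
    n • (H160.Z2Irr.pt x₀ w + H160.Z2Irr.pt x₀ w') ∈ Rel m K N) →
    ∀ w, GenS P w → ∃ e : ℤ, e ≠ 0 ∧ e • H160.Z2Irr.pt x₀ w ∈ Rel m K N

/-- **The main theorem from the blocks**, for every field dominated by the surface. -/
theorem bloch_of_blocks {P : Par} {x₀ : Fin 5 → K} (hx : H160.Z2Irr.IsFF P x₀)
    {Chord : BigField K 2 → (Fin 5 → BigField K 2) → (Fin 5 → BigField K 2) → Prop}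
    {n : ℤ} (hn : n ≠ 0) (hT : NodeConst P x₀ (BigField K 2) 0 n)
    (hL : Link6E P x₀ (BigField K 2) 0) (hC : ChordLine P x₀ (BigField K 2) Chord)
    (hK : KSide P x₀ (BigField K 2) 0 Chord) {L : Type} [Field L] [Algebra ℂ L]
    (ι : L →ₐ[ℂ] K) : PointsEquivalent L := by
  let φ : K →ₐ[ℂ] BigField K 2 := IsScalarTower.toAlgHom ℂ K (BigField K 2)
  have hn2 : 2 * n ≠ 0 := mul_ne_zero two_ne_zero hn
  obtain ⟨e, he, h⟩ := hK (2 * n) hn2 (fun l w w' hw => by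
    obtain ⟨h1, p0, p1, r0, r1, s0, s1, s2, h2, h3⟩ := hC l w w' hw
    rw [← h3]
    exact ycyc_rel hT hL h1 h2) (fun j => φ (x₀ j)) (hx.genS.map φ)
  rw [pt_phi hx, Finsupp.smul_single, smul_eq_mul, mul_one] at h
  have h1 := Rel.precomp ι h
  rw [Finsupp.mapDomain_single] at h1
  exact C8.pointsEquivalent_of_rel _ he h1

end

end Vale.Agent.P297.Z2
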