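import Vale.Agent.P297.H424.Z2.Last
import Vale.Agent.P297.H637.Z2.Link6

/-!
Bloch's conjecture for the general numerical Godeaux surface with torsion of order two.
-/

set_option linter.unusedSectionVars false
set_option linter.unusedVariables false

open Polynomial

namespace Vale.Agent.P297.Z2

open Vale.Agent.P297 Vale.Agent.P297.Gen Vale.Agent.P297.H72 Vale.Agent.P297.H839
open Vale.Agent.P297.H600
open Vale.Agent.P297.H160.Z2Irr

/-- **The general numerical Godeaux surface with torsion `ℤ/2`.** -/
theorem godeaux_two {z : Fin 9 → ℂ} (hz : NonDeg (NV.par z)) {K : Type} [Field K] [Algebra ℂ K]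
    {x k y s t : K} (hyk : AlgebraicIndependent ℂ ![y, k])
    (htop : IntermediateField.adjoin ℂ {x, k, y, s, t} = ⊤)
    (h : eqs2 (fun i => algebraMap ℂ K (z i)) x k y s t) {L : Type} [Field L] [Algebra ℂ L]
    (ι : L →ₐ[ℂ] K) : PointsEquivalent L :=
  have hx : H160.Z2Irr.IsFF (NV.par z) ![x, k, y, s, t] := isFF_of_eqs hz.P0 hyk htop h
  bloch_of_link6 hz hx (fun _ h9 => link6 hx hz h9) ι

end Vale.Agent.P297.Z2
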