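import Vale.Agent.P297.H424.Z2.Main

/-!
Bloch's conjecture for the general numerical Godeaux surface with torsion of order two.
-/

set_option linter.unusedSectionVars false
set_option linter.unusedVariables false

open Polynomial

namespace Vale.Agent.P297.Z2

open Vale.Agent.P297 Vale.Agent.P297.Gen Vale.Agent.P297.H72 Vale.Agent.P297.H839
open Vale.Agent.P297.H600
open Vale.Agent.P297.H160.Z2Irr

/-- the equations of the surfaces with `ℤ/2`-torsion -/
def eqs2 {K : Type} [Field K] (p : Fin 9 → K) (x k y s t : K) : Prop :=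
  x * (k ^ 2 * t - s) + (y + p 5) ^ 2 * t - (y + p 6) ^ 2 * s =
      (2 * y + p 3) * (y + p 5) + (2 * y + p 4) * k * (y + p 6) ∧
    x * (s - k * t + (1 + p 0 / (y + p 5) + p 2 / (y + p 6)) * k - p 2 / (y + p 6) * k ^ 2 -
        p 0 / (y + p 5)) =
      p 8 - y ^ 2 + p 1 * y + p 2 / (y + p 6) * (y + p 5) ^ 2 +
        p 0 / (y + p 5) * (y + p 6) ^ 2 ∧
    x * ((s + 2 * (p 0 / (y + p 5)) * k) * (t - 2 * (p 2 / (y + p 6))) +
        (p 0 / (y + p 5) + p 2 / (y + p 6) * k) ^ 2) =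
      p 7 - y ^ 2 + p 0 / (y + p 5) * (2 * y + p 4) * (y + p 6) +
        p 2 / (y + p 6) * (2 * y + p 3) * (y + p 5) -
        (p 0 / (y + p 5) * (y + p 6) + p 2 / (y + p 6) * (y + p 5)) ^ 2

/-- the parameters -/
def parOf (z : Fin 9 → ℂ) : Par := ⟨z 0, z 1, z 2, z 3, z 4, z 5, z 6, z 7, z 8, 0⟩

theorem eqs2.E {z : Fin 9 → ℂ} {K : Type} [Field K] [Algebra ℂ K] {x k y s t : K}
    (h : eqs2 (fun i => algebraMap ℂ K (z i)) x k y s t) :
    E1 (parOf z) x k y s t ∧ E2 (parOf z) x k y s t ∧ E3 (parOf z) x k y s t := by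
  obtain ⟨h1, h2, h3⟩ := h
  refine ⟨?_, ?_, ?_⟩
  · unfold E1 fU fV fa fc parOf
    linear_combination h1
  · unfold E2 fU fV fe parOf
    linear_combination h2
  · unfold E3 fU fV fa fc fm parOf
    simp only [map_zero, zero_mul, add_zero]
    linear_combination h3

theorem isFF_of_eqs {z : Fin 9 → ℂ} (h0 : z 0 ≠ 0) {K : Type} [Field K] [Algebra ℂ K]
    {x k y s t : K} (hyk : AlgebraicIndependent ℂ ![y, k])
    (htop : IntermediateField.adjoin ℂ {x, k, y, s, t} = ⊤)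
    (h : eqs2 (fun i => algebraMap ℂ K (z i)) x k y s t) :
    H160.Z2Irr.IsFF (parOf z) ![x, k, y, s, t] := by
  obtain ⟨h1, h2, h3⟩ := h.E
  refine H160.Z2Irr.IsFF.of_ind (P := parOf z) h0 (w := ![x, k, y, s, t]) hyk ?_ h1 h2 h3
  rw [← htop]
  congr 1
  ext a
  simp only [Matrix.range_cons, Matrix.range_empty, Set.union_empty, Set.mem_union,
    Set.mem_insert_iff, Set.mem_singleton_iff]

end Vale.Agent.P297.Z2
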