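import Vale.Agent.P297.H424.Z2.Godeaux
import Vale.Agent.P297.H860.Z2.ChordS
import Vale.Agent.P297.H212.Z2.NodeC
import Vale.Agent.P297.H521.Z2.NV6
import Vale.Agent.P297.H721.Z2.Gen9
import Vale.Agent.P297.H777.Z2.Link4
import Vale.Agent.P297.H288.K2.KSide

/-!
Bloch's conjecture for the general numerical Godeaux surface with torsion of order two, from the
last block.
-/

set_option linter.unusedSectionVars false
set_option linter.unusedVariables false

open Polynomial

namespace Vale.Agent.P297.Z2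

open Vale.Agent.P297 Vale.Agent.P297.Gen Vale.Agent.P297.H72 Vale.Agent.P297.H839
open Vale.Agent.P297.H600
open Vale.Agent.P297.H160.Z2Irr
open Vale.Agent.P297.H288.K2

theorem bloch_of_link6 {P : Par} (h : NonDeg P) {K : Type} [Field K] [Algebra ℂ K]
    {x₀ : Fin 5 → K} (hx : H160.Z2Irr.IsFF P x₀)
    (h6 : Algebra.trdeg ℂ (BigField K 2) = 4 → H55Z.Good9 P (BigField K 2) →
      Link6S P x₀ (BigField K 2) 0)
    {L : Type} [Field L] [Algebra ℂ L] (ι : L →ₐ[ℂ] K) : PointsEquivalent L := by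
  classical
  obtain ⟨f, g, I⟩ := h.exists_invPQ
  haveI : CharZero (BigField K 2) := charZero_of_injective_algebraMap
    (FaithfulSMul.algebraMap_injective ℂ (BigField K 2))
  have h4 : Algebra.trdeg ℂ (BigField K 2) = 4 := H424.trdeg_big hx.trdeg
  have h9 : H55Z.Good9 P (BigField K 2) :=
    H721.G9.good9 h.nc h.M1 h.Q0 h.Q1 h.uv h.V h.gh
  have hL4 : Link4 P x₀ (BigField K 2) 0 := H777.Z2.link4 h.M1 h.nc h4 hx (H55Z.deg9 P) h9
  have hK : KSide P x₀ (BigField K 2) 0 fun l w w' => ∃ t, IsChord P l t w w' :=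
    Z2K.kside h4 hx h.P0 h.P2 h.Q h.uv (by
      rintro ⟨h1, h2⟩
      exact h.P02 (mul_left_cancel₀ two_ne_zero (h1.symm.trans h2)))
  exact bloch_of_blocks_s hx (n := 192) (by norm_num) (nodeConst h.M1 h.nc I h4 hx h9 hL4)
    (h6 h4 h9) (H860.Z2.chordLineS x₀ h.P0 h.P2 h.Q) hK ι

end Vale.Agent.P297.Z2
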