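import Vale.Agent.P297.H424.Z2.Godeaux
import Vale.Agent.P297.H860.Z2.ChordS
import Vale.Agent.P297.H212.Z2.NodeC
import Vale.Agent.P297.H521.Z2.NV6

/-!
Bloch's conjecture for the general numerical Godeaux surface with torsion of order two, from the
last blocks.
-/

set_option linter.unusedSectionVars false
set_option linter.unusedVariables false

open Polynomial

namespace Vale.Agent.P297.Z2

open Vale.Agent.P297 Vale.Agent.P297.Gen Vale.Agent.P297.H72 Vale.Agent.P297.H839
open Vale.Agent.P297.H600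
open Vale.Agent.P297.H160.Z2Irr
open Vale.Agent.P297.H288.K2

/-- **The last blocks.** -/
structure Blocks (P : Par) {K : Type} [Field K] [Algebra ℂ K] (x₀ : Fin 5 → K) : Prop where
  good9 : H55Z.Good9 P (BigField K 2)
  link4 : ∀ [DecidableEq (BigField K 2)], Link4 P x₀ (BigField K 2) 0
  link6 : Link6S P x₀ (BigField K 2) 0
  kside : KSide P x₀ (BigField K 2) 0 fun l w w' => ∃ t, IsChord P l t w w'

theorem bloch_of_last {P : Par} (h : NonDeg P) {K : Type} [Field K] [Algebra ℂ K]
    {x₀ : Fin 5 → K} (hx : H160.Z2Irr.IsFF P x₀) (B : Blocks P x₀) {L : Type} [Field L]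
    [Algebra ℂ L] (ι : L →ₐ[ℂ] K) : PointsEquivalent L := by
  classical
  obtain ⟨f, g, I⟩ := h.exists_invPQ
  haveI : CharZero (BigField K 2) := charZero_of_injective_algebraMap
    (FaithfulSMul.algebraMap_injective ℂ (BigField K 2))
  have h4 : Algebra.trdeg ℂ (BigField K 2) = 4 := H424.trdeg_big hx.trdeg
  exact bloch_of_blocks_s hx (n := 192) (by norm_num)
    (nodeConst h.M1 h.nc I h4 hx B.good9 B.link4) B.link6
    (H860.Z2.chordLineS x₀ h.P0 h.P2 h.Q) B.kside ι

theorem godeaux_of_last {z : Fin 9 → ℂ} (hz : NonDeg (parOf z)) {K : Type} [Field K]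
    [Algebra ℂ K] {x k y s t : K} (hyk : AlgebraicIndependent ℂ ![y, k])
    (htop : IntermediateField.adjoin ℂ {x, k, y, s, t} = ⊤)
    (h : eqs2 (fun i => algebraMap ℂ K (z i)) x k y s t)
    (B : Blocks (parOf z) ![x, k, y, s, t]) {L : Type} [Field L] [Algebra ℂ L]
    (ι : L →ₐ[ℂ] K) : PointsEquivalent L :=
  bloch_of_last hz (isFF_of_eqs hz.P0 hyk htop h) B ι

end Vale.Agent.P297.Z2
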